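import Vale.Agent.P095.Uni.Model.Estimate

/-!
# P095: the matrix goal

Few eigenvalues of the operator on the permutation group are large, by the moment bound; a subspace
of at least half the dimension avoids all their eigenvectors.
-/

open scoped ComplexOrder
open Matrix Finset

noncomputable section

namespace Vale.Agent.P095.Uni.Free

section basic

variable {L D : ℕ}

/-- The Gram decomposition of a positive block matrix with the two bounds. -/
theorem exists_gram (c : Fin L → Fin L → Matrix (Fin D) (Fin D) ℂ) (δ : ℝ)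
    (hc : ∀ v : Fin L → Fin D → ℂ, 0 ≤ ∑ i, ∑ j, star (v i) ⬝ᵥ (c i j *ᵥ v j) ∧
      ∑ i, ∑ j, star (v i) ⬝ᵥ (c i j *ᵥ v j) ≤ (δ : ℂ) * ∑ i, star (v i) ⬝ᵥ v i)
    (ha : ∀ v : Fin D → ℂ, star v ⬝ᵥ ((∑ i, c i i) *ᵥ v) ≤ star v ⬝ᵥ v) :
    ∃ y : Fin L → Matrix (Fin L × Fin D) (Fin D) ℂ, (∀ i j, c i j = (y i)ᴴ * y j) ∧
      (∀ v, ∑ i, nsq (y i *ᵥ v) ≤ nsq v) ∧
      ∀ v : Fin L → Fin D → ℂ, nsq (∑ i, y i *ᵥ v i) ≤ δ * ∑ i, nsq (v i) := by
  classical
  set M : Matrix (Fin L × Fin D) (Fin L × Fin D) ℂ := fun p q => c p.1 q.1 p.2 q.2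
  have hq : ∀ x : Fin L × Fin D → ℂ, star x ⬝ᵥ (M *ᵥ x) =
      ∑ i, ∑ j, star (fun d => x (i, d)) ⬝ᵥ (c i j *ᵥ fun d => x (j, d)) := fun x => by
    simp only [dotProduct, mulVec, Fintype.sum_prod_type, Pi.star_apply, mul_sum, M]
    exact sum_congr rfl fun i _ => sum_comm
  have hM : M.PosSemidef := by
    rw [← Matrix.isPositive_toEuclideanLin_iff, LinearMap.isPositive_iff_complex]
    intro x
    have hpos : 0 ≤ star (WithLp.ofLp x) ⬝ᵥ (M *ᵥ WithLp.ofLp x) := by rw [hq]; exact (hc _).1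
    have h1 : inner ℂ (Matrix.toEuclideanLin M x) x =
        star (star (WithLp.ofLp x) ⬝ᵥ (M *ᵥ WithLp.ofLp x)) := by
      rw [EuclideanSpace.inner_eq_star_dotProduct, dotProduct_comm, star_dotProduct]
      rfl
    obtain ⟨hre, him⟩ := Complex.nonneg_iff.1 hpos
    rw [h1, RCLike.star_def]
    refine ⟨Complex.ext ?_ ?_, ?_⟩ <;> simp [hre, ← him]
  obtain ⟨B, hB⟩ : ∃ B, M = Bᴴ * B := by
    open scoped MatrixOrder in
    exact CStarAlgebra.nonneg_iff_eq_star_mul_self.1 hM.nonneg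
  set y : Fin L → Matrix (Fin L × Fin D) (Fin D) ℂ := fun i e d => B e (i, d)
  have hy : ∀ i j, c i j = (y i)ᴴ * y j := fun i j => by
    ext a b
    exact congrFun (congrFun hB (i, a)) (j, b)
  refine ⟨y, hy, fun v => ?_, fun v => ?_⟩
  · refine Complex.real_le_real.1 ?_
    rw [Complex.ofReal_sum, ← dot_self]
    refine le_trans (le_of_eq ?_) (ha v)
    rw [sum_mulVec, dotProduct_sum]
    refine sum_congr rfl fun i _ => ?_
    rw [← dot_self, hy, dot_gram]
  · refine Complex.real_le_real.1 ?_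
    rw [← dot_self, Complex.ofReal_mul, Complex.ofReal_sum]
    simp only [← dot_self]
    refine le_trans (le_of_eq ?_) (hc v).2
    rw [star_sum, sum_dotProduct]
    refine sum_congr rfl fun i _ => ?_
    rw [dotProduct_sum]
    exact sum_congr rfl fun j _ => by rw [hy, dot_gram]

end basic

section operator

variable {Y : Type*} [Fintype Y] [DecidableEq Y] {D L m : ℕ}

theorem Zop_apply (U : Fin L → Equiv.Perm Y) (H : Fin m → Equiv.Perm Y)
    (c : Fin L → Fin L → Matrix (Fin D) (Fin D) ℂ) (η : Y → Fin D → ℂ) (z : Y) :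
    Zop U H c η z = (∑ i, ∑ i', ∑ j, c i i' *ᵥ η ((U i * H j * U i').symm z)) -
      (∑ i, c i i) *ᵥ η z := by
  simp only [Zop, Pi.sub_apply, Finset.sum_apply]
  congr 1
  refine sum_congr rfl fun i _ => sum_congr rfl fun i' _ => sum_congr rfl fun j _ => ?_
  conv_lhs => rw [← (U i * H j * U i').apply_symm_apply z]
  rw [push_apply_inj (Equiv.injective _)]

/-- `Zop` as a linear map of the Hilbert space. -/
def opLin (U : Fin L → Equiv.Perm Y) (H : Fin m → Equiv.Perm Y)
    (c : Fin L → Fin L → Matrix (Fin D) (Fin D) ℂ) :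
    EuclideanSpace ℂ (Y × Fin D) →ₗ[ℂ] EuclideanSpace ℂ (Y × Fin D) where
  toFun x := vec (Zop U H c fun q d => x (q, d))
  map_add' x z := by
    have e : (fun q d => (x + z) (q, d)) = (fun q d => x (q, d)) + fun q d => z (q, d) := rfl
    rw [← vec_add, e]
    congr 1
    funext q
    simp only [Pi.add_apply, Zop_apply, mulVec_add, sum_add_distrib]
    abel
  map_smul' a x := by
    have e : (fun q d => (a • x) (q, d)) = a • fun q d => x (q, d) := rfl
    have e' : ∀ η : Y → Fin D → ℂ, vec (a • η) = a • vec η := fun η => rfl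
    rw [RingHom.id_apply, ← e', e]
    congr 1
    funext q
    simp only [Pi.smul_apply, Zop_apply, mulVec_smul, ← smul_sum, smul_sub]

theorem opLin_vec (U : Fin L → Equiv.Perm Y) (H : Fin m → Equiv.Perm Y)
    (c : Fin L → Fin L → Matrix (Fin D) (Fin D) ℂ) (η : Y → Fin D → ℂ) :
    opLin U H c (vec η) = vec (Zop U H c η) := rfl

theorem opLin_pow (U : Fin L → Equiv.Perm Y) (H : Fin m → Equiv.Perm Y)
    (c : Fin L → Fin L → Matrix (Fin D) (Fin D) ℂ) (n : ℕ) (η : Y → Fin D → ℂ) :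
    (opLin U H c ^ n) (vec η) = vec ((Zop U H c)^[n] η) := by
  induction n with
  | zero => rfl
  | succ n ih => rw [pow_succ', Module.End.mul_apply, ih, opLin_vec, Function.iterate_succ_apply']

end operator

section eigen

variable {ι : Type*} [Fintype ι] [DecidableEq ι] {T : EuclideanSpace ℂ ι →ₗ[ℂ] EuclideanSpace ℂ ι}
  {n : ℕ}

/-- The moment bound counts the large eigenvalues, and vectors orthogonal to their eigenvectors
have small quadratic form. -/
theorem exists_bad (hT : T.IsSymmetric) {β B : ℝ} (hβ : 0 ≤ β) (n : ℕ)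
    (hB : ∀ i, ‖(T ^ n) (EuclideanSpace.single i 1)‖ ^ 2 ≤ B) :
    ∃ (J : ℕ) (b : Fin J → EuclideanSpace ℂ ι),
      (J : ℝ) * ((2 * β) ^ n) ^ 2 ≤ Fintype.card ι * B ∧
      ∀ x, (∀ k, inner ℂ (b k) x = 0) → ‖inner ℂ x (T x)‖ ≤ 2 * β * ‖x‖ ^ 2 := by
  classical
  have hd : Module.finrank ℂ (EuclideanSpace ℂ ι) = Fintype.card ι := finrank_euclideanSpace
  set e := hT.eigenvectorBasis hd
  set lam := hT.eigenvalues hd
  have heig : ∀ k x, inner ℂ (e k) (T x) = (lam k : ℂ) * inner ℂ (e k) x := fun k x => by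
    rw [← hT, hT.apply_eigenvectorBasis, inner_smul_left, RCLike.conj_ofReal]
    rfl
  have hpow : ∀ n k x, inner ℂ (e k) ((T ^ n) x) = (lam k : ℂ) ^ n * inner ℂ (e k) x := by
    intro n k
    induction n with
    | zero => intro x; simp
    | succ n ih => intro x; rw [pow_succ', Module.End.mul_apply, heig, ih, pow_succ']; ring
  have hsum : ∑ k, (lam k ^ n) ^ 2 ≤ Fintype.card ι * B := by
    have h2 : ∀ i, ‖(T ^ n) (EuclideanSpace.single i 1)‖ ^ 2 =
        ∑ k, (lam k ^ n) ^ 2 * ‖inner ℂ (e k) (EuclideanSpace.single i (1 : ℂ))‖ ^ 2 := fun i => by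
      rw [← e.sum_sq_norm_inner_right]
      refine sum_congr rfl fun k _ => ?_
      rw [hpow, norm_mul, mul_pow, norm_pow, Complex.norm_real, Real.norm_eq_abs, ← abs_pow, sq_abs]
    have h3 : ∀ k, ∑ i, ‖inner ℂ (e k) (EuclideanSpace.single i (1 : ℂ))‖ ^ 2 = 1 := fun k => by
      have h4 := (EuclideanSpace.basisFun ι ℂ).sum_sq_norm_inner_left (e k)
      simp only [EuclideanSpace.basisFun_apply] at h4
      rw [h4, e.orthonormal.norm_eq_one]; norm_num
    calc ∑ k, (lam k ^ n) ^ 2 = ∑ i, ‖(T ^ n) (EuclideanSpace.single i 1)‖ ^ 2 := by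
          simp only [h2]
          rw [sum_comm]
          exact sum_congr rfl fun k _ => by rw [← mul_sum, h3, mul_one]
      _ ≤ ∑ _i : ι, B := sum_le_sum fun i _ => hB i
      _ = _ := by simp
  set bad := univ.filter fun k => 2 * β < |lam k|
  refine ⟨bad.card, fun k => e (bad.equivFin.symm k), ?_, fun x hx => ?_⟩
  · refine le_trans ?_ hsum
    calc (bad.card : ℝ) * ((2 * β) ^ n) ^ 2 = ∑ _k ∈ bad, ((2 * β) ^ n) ^ 2 := by simp
      _ ≤ ∑ k ∈ bad, (lam k ^ n) ^ 2 := sum_le_sum fun k hk => by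
          rw [← sq_abs (lam k ^ n), abs_pow]
          exact pow_le_pow_left₀ (by positivity)
            (pow_le_pow_left₀ (by positivity) (mem_filter.1 hk).2.le n) 2
      _ ≤ _ := sum_le_sum_of_subset_of_nonneg (subset_univ _) fun _ _ _ => sq_nonneg _
  · rw [← e.sum_inner_mul_inner x (T x), ← e.sum_sq_norm_inner_right x, mul_sum]
    refine norm_sum_le_of_le _ fun k _ => ?_
    rw [norm_mul, heig, norm_mul, ← norm_inner_symm x, Complex.norm_real, Real.norm_eq_abs]
    by_cases hk : k ∈ bad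
    · have h := hx (bad.equivFin ⟨k, hk⟩)
      simp only [Equiv.symm_apply_apply] at h
      rw [norm_inner_symm, h]
      simp
    · rw [mul_left_comm, sq]
      exact mul_le_mul_of_nonneg_right (not_lt.1 fun h => hk (mem_filter.2 ⟨mem_univ _, h⟩))
        (mul_nonneg (norm_nonneg _) (norm_nonneg _))

end eigen

theorem card_small {D J Q : ℕ} {β : ℝ} (hβ : 0 < β)
    (h : (J : ℝ) * ((2 * β) ^ (D + 1)) ^ 2 ≤ (Q * D : ℕ) * (β ^ (D + 1)) ^ 2) : 2 * (J * D) ≤ Q := by
  have h1 : (J : ℝ) * 4 ^ (D + 1) ≤ (Q * D : ℕ) := by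
    refine le_of_mul_le_mul_right ?_ (pow_pos (pow_pos hβ (D + 1)) 2)
    refine le_trans (le_of_eq ?_) h
    rw [mul_pow, mul_pow, ← pow_mul (2 : ℝ), mul_comm (D + 1) 2, pow_mul, mul_assoc]
    norm_num
  have h2 : J * 4 ^ (D + 1) ≤ Q * D := by exact_mod_cast h1
  have hD : D * D * 2 ≤ 4 ^ (D + 1) := by
    have h3 : D ≤ 2 ^ D := Nat.lt_two_pow_self.le
    calc D * D * 2 ≤ 2 ^ D * 2 ^ D * 2 := by gcongr
      _ ≤ 2 ^ D * 2 ^ D * 4 := by gcongr; norm_num
      _ = 4 ^ (D + 1) := by rw [pow_succ, ← mul_pow]; norm_num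
  refine Nat.le_of_mul_le_mul_right (c := 4 ^ (D + 1)) ?_ (by positivity)
  calc 2 * (J * D) * 4 ^ (D + 1) = 2 * D * (J * 4 ^ (D + 1)) := by ring
    _ ≤ 2 * D * (Q * D) := Nat.mul_le_mul_left _ h2
    _ = Q * (D * D * 2) := by ring
    _ ≤ Q * 4 ^ (D + 1) := Nat.mul_le_mul_left _ hD

section subspace

variable {Y : Type*} [Fintype Y] {D N : ℕ}

/-- The orthonormal columns of `W` preserve the square sum. -/
theorem nsq_cols {W : Y → Fin N → ℂ}
    (hW : ∀ j l, ∑ q, star (W q j) * W q l = if j = l then 1 else 0) (v : Fin N → ℂ) :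
    ∑ q, ‖∑ j, W q j * v j‖ ^ 2 = nsq v := by
  apply Complex.ofReal_injective
  rw [← dot_self, Complex.ofReal_sum]
  simp only [Complex.ofReal_pow, ← Complex.conj_mul', map_sum, map_mul, sum_mul, mul_sum]
  rw [sum_comm, dotProduct]
  refine sum_congr rfl fun j _ => ?_
  rw [sum_comm]
  have h : ∀ l, ∑ q, (starRingEnd ℂ) (W q l) * (starRingEnd ℂ) (v l) * (W q j * v j) =
      (starRingEnd ℂ) (v l) * v j * (if l = j then 1 else 0) := fun l => by
    rw [← hW, mul_sum]
    exact sum_congr rfl fun q _ => by rw [RCLike.star_def]; ring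
  simp only [h, mul_ite, mul_one, mul_zero, sum_ite_eq', mem_univ, if_true]
  rfl

/-- A large family of orthonormal columns orthogonal to given vectors in every coordinate. -/
theorem exists_cols {J : ℕ} (b : Fin J → EuclideanSpace ℂ (Y × Fin D)) :
    ∃ (N : ℕ) (W : Y → Fin N → ℂ), Fintype.card Y ≤ N + J * D ∧
      (∀ j l, ∑ q, star (W q j) * W q l = if j = l then 1 else 0) ∧
      ∀ (ξ : Fin N → Fin D → ℂ) k, inner ℂ (b k) (vec fun q => ∑ j, W q j • ξ j) = 0 := by
  set Φ : EuclideanSpace ℂ Y →ₗ[ℂ] Fin J × Fin D → ℂ :=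
    { toFun := fun ξ p => ∑ q, star (b p.1 (q, p.2)) * ξ q
      map_add' := fun ξ ξ' => by funext p; simp [mul_add, sum_add_distrib]
      map_smul' := fun a ξ => by funext p; simp [mul_sum, mul_left_comm] } with hΦ
  have h1 := LinearMap.finrank_range_add_finrank_ker Φ
  have h2 := Submodule.finrank_le (LinearMap.range Φ)
  rw [Module.finrank_fintype_fun_eq_card, Fintype.card_prod, Fintype.card_fin, Fintype.card_fin] at h2
  rw [finrank_euclideanSpace] at h1
  set w := stdOrthonormalBasis ℂ (LinearMap.ker Φ)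
  refine ⟨_, fun q j => (w j : EuclideanSpace ℂ Y) q, by omega, fun j l => ?_, fun ξ k => ?_⟩
  · rw [← orthonormal_iff_ite.1 w.orthonormal j l, Submodule.coe_inner, PiLp.inner_apply]
    exact sum_congr rfl fun q _ => by simp [RCLike.inner_apply, mul_comm]
  · rw [PiLp.inner_apply, Fintype.sum_prod_type, sum_comm]
    refine sum_eq_zero fun d _ => ?_
    have h : ∀ j, ∑ q, star (b k (q, d)) * (w j : EuclideanSpace ℂ Y) q = 0 := fun j =>
      congrFun (LinearMap.mem_ker.1 (w j).2) (k, d)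
    calc _ = ∑ q, ∑ j, star (b k (q, d)) * (w j : EuclideanSpace ℂ Y) q * ξ j d :=
          sum_congr rfl fun q _ => by
            simp [vec, Finset.sum_apply, mul_sum, RCLike.inner_apply, mul_comm, mul_assoc]
      _ = 0 := by rw [sum_comm]; exact sum_eq_zero fun j _ => by rw [← sum_mul, h, zero_mul]

end subspace

section quadratic

variable {L K N : ℕ} {Y : Type*} [Fintype Y] {D : Type*} [Fintype D]

/-- The quadratic form of `∑ (V i)ᴴ V i' ⊗ c i i'`. -/
theorem quad_eq (V : Fin L → Matrix (Fin K) (Fin N) ℂ) (c : Fin L → Fin L → Matrix D D ℂ)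
    (ξ : Fin N → D → ℂ) :
    ∑ j, ∑ l, star (ξ j) ⬝ᵥ ((∑ i, ∑ i', ((V i)ᴴ * V i') j l • c i i') *ᵥ ξ l) =
      ∑ k, ∑ i, ∑ i', star (∑ j, V i k j • ξ j) ⬝ᵥ (c i i' *ᵥ ∑ l, V i' k l • ξ l) := by
  simp only [sum_mulVec, dotProduct_sum, smul_mulVec, dotProduct_smul, mul_apply,
    conjTranspose_apply, star_sum, star_smul, sum_dotProduct, smul_dotProduct, mulVec_sum,
    mulVec_smul, smul_eq_mul, sum_mul, mul_sum]
  rw [sum_comm_cycle]
  conv_rhs => rw [sum_comm]
  refine sum_congr rfl fun i _ => ?_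
  rw [sum_comm_cycle]
  conv_rhs => rw [sum_comm]
  refine sum_congr rfl fun i' _ => ?_
  conv_rhs => rw [sum_comm_cycle, sum_comm_cycle, sum_comm]
  exact sum_congr rfl fun j _ => sum_congr rfl fun l _ => sum_congr rfl fun k _ => by ring

/-- Orthonormal columns leave `∑ ⟨η, a η⟩` unchanged. -/
theorem quad_cols {W : Y → Fin N → ℂ}
    (hW : ∀ j l, ∑ q, star (W q j) * W q l = if j = l then 1 else 0) (a : Matrix D D ℂ)
    (ξ : Fin N → D → ℂ) :
    ∑ q, star (∑ j, W q j • ξ j) ⬝ᵥ (a *ᵥ ∑ j, W q j • ξ j) = ∑ j, star (ξ j) ⬝ᵥ (a *ᵥ ξ j) := by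
  simp only [star_sum, star_smul, sum_dotProduct, smul_dotProduct, mulVec_sum, mulVec_smul,
    dotProduct_sum, dotProduct_smul, smul_eq_mul, mul_sum]
  rw [sum_comm]
  refine sum_congr rfl fun j _ => ?_
  rw [sum_comm]
  simp only [← mul_assoc, ← sum_mul]
  simp only [mul_comm (W _ _) (star _), hW, ite_mul, one_mul, zero_mul, sum_ite_eq',
    mem_univ, if_true]

end quadratic

section system

variable {L m R : ℕ} [NeZero m]

variable (L m R) in
/-- Representatives of the orbits of `g` in the permutation group. -/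
abbrev Tr : Type := {q : Equiv.Perm (Wx L m R) // (q empty).1 = 0}

theorem fst_hX_mul (j : Fin m) (s : Equiv.Perm (Wx L m R)) :
    ((hX j * s : Equiv.Perm (Wx L m R)) empty).1 = (s empty).1 + j := by
  rw [Equiv.Perm.mul_apply]
  rfl

theorem hX_neg_mul (a : Fin m) (s : Equiv.Perm (Wx L m R)) : hX (-a) * (hX a * s) = s := by
  rw [← mul_assoc, hX_mul, add_neg_cancel, hX_zero, one_mul]

theorem hX_mul_neg (a : Fin m) (s : Equiv.Perm (Wx L m R)) : hX a * (hX (-a) * s) = s := by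
  rw [← mul_assoc, hX_mul, neg_add_cancel, hX_zero, one_mul]

/-- The representative of the orbit of `q`. -/
def repr (q : Equiv.Perm (Wx L m R)) : Tr L m R :=
  ⟨hX (-(q empty).1) * q, by rw [fst_hX_mul, add_neg_cancel]⟩

theorem fst_hX_tr (j : Fin m) (s : Tr L m R) :
    ((hX j * s.1 : Equiv.Perm (Wx L m R)) empty).1 = j := by rw [fst_hX_mul, s.2, zero_add]

theorem repr_hX (j : Fin m) (s : Tr L m R) : repr (hX j * s.1) = s := by
  refine Subtype.ext ?_
  simp only [repr, fst_hX_tr, hX_neg_mul]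

/-- The permutation group as a product of `g`-orbits and representatives. -/
def eQ : Fin m × Tr L m R ≃ Equiv.Perm (Wx L m R) where
  toFun p := hX p.1 * p.2.1
  invFun q := ((q empty).1, repr q)
  left_inv p := Prod.ext (fst_hX_tr p.1 p.2) (repr_hX p.1 p.2)
  right_inv q := hX_mul_neg (q empty).1 q

theorem hQ_eQ (j l : Fin m) (s : Tr L m R) : hQ j (eQ (l, s)) = eQ (l + j, s) :=
  show hX j * (hX l * s.1) = hX (l + j) * s.1 by rw [← mul_assoc, hX_mul]

theorem uQ_uQ (i : Fin L) (q : Equiv.Perm (Wx L m R)) : uQ i (uQ i q) = q :=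
  show uX i * (uX i * q) = q by rw [← mul_assoc, uX_mul_self, one_mul]

open Classical in
/-- A half-dimensional family of columns on which the form is small. -/
theorem exists_half (hm : 2 ≤ m) {D : ℕ} {δ : ℝ} (hδ : 0 < δ) (hmδ : (m : ℝ) * δ ≤ 1)
    {E : Type*} [Fintype E] {y : Fin L → Matrix E (Fin D) ℂ}
    (hy : ∀ v, ∑ i, nsq (y i *ᵥ v) ≤ nsq v)
    (hb : ∀ v : Fin L → Fin D → ℂ, nsq (∑ i, y i *ᵥ v i) ≤ δ * ∑ i, nsq (v i))
    (hR : 2 * (D + 1) < R) :
    ∃ (N : ℕ) (W : Equiv.Perm (Wx L m R) → Fin N → ℂ),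
      Fintype.card (Equiv.Perm (Wx L m R)) ≤ 2 * N ∧
      (∀ j l, ∑ q, star (W q j) * W q l = if j = l then 1 else 0) ∧
      ∀ ξ : Fin N → Fin D → ℂ,
        ‖inner ℂ (vec fun q => ∑ j, W q j • ξ j)
          (vec (Zop uQ hQ (fun i i' => (y i)ᴴ * y i') fun q => ∑ j, W q j • ξ j))‖ ≤
          8 * Real.sqrt (m * δ) * ‖vec fun q => ∑ j, W q j • ξ j‖ ^ 2 := by
  set β := δ + 2 * Real.sqrt (m * δ) + m * δ with hβ
  have hβ0 : 0 < β := by positivity
  have hβ8 : 2 * β ≤ 8 * Real.sqrt (m * δ) := by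
    have h0 : 0 ≤ (m : ℝ) * δ := by positivity
    have h1 : (m : ℝ) * δ ≤ Real.sqrt (m * δ) := Real.le_sqrt_of_sq_le (by nlinarith)
    have hm' : (2 : ℝ) ≤ m := by exact_mod_cast hm
    nlinarith
  set T := opLin (uQ (L := L) (m := m) (R := R)) hQ fun i i' => (y i)ᴴ * y i'
  have hsym : T.IsSymmetric := fun x z => by
    rw [← inner_conj_symm]
    show (starRingEnd ℂ) (inner ℂ (vec fun q d => z (q, d)) (vec (Zop uQ hQ _ fun q d => x (q, d)))) =
      inner ℂ (vec fun q d => x (q, d)) (vec (Zop uQ hQ _ fun q d => z (q, d)))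
    rw [inner_Zop_gram _ _ eQ uQ_uQ hQ_eQ, inner_Zop_gram _ _ eQ uQ_uQ hQ_eQ, map_sub,
      inner_conj_symm, inner_conj_symm]
  obtain ⟨J, b, hJ, hbx⟩ := exists_bad hsym hβ0.le (D + 1) (B := (β ^ (D + 1)) ^ 2) fun p => by
    obtain ⟨p1, p2⟩ := p
    have hs : EuclideanSpace.single (p1, p2) (1 : ℂ) =
        vec fun q => if q = p1 then Pi.single p2 1 else 0 := by
      ext ⟨q, d⟩
      by_cases h1 : q = p1 <;> by_cases h2 : d = p2 <;> simp [vec, h1, h2]
    rw [hs, opLin_pow, norm_sq_vec]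
    refine (moment hδ.le hy hb (D + 1) hR p1 _).trans_eq ?_
    rw [show nsq (Pi.single p2 (1 : ℂ) : Fin D → ℂ) = 1 by
      rw [nsq, sum_eq_single p2 (fun d _ hd => by simp [hd]) (by simp)]; simp, mul_one]
  rw [Fintype.card_prod, Fintype.card_fin] at hJ
  have hsmall := card_small hβ0 hJ
  obtain ⟨N, W, hN, hW, hWb⟩ := exists_cols b
  exact ⟨N, W, by omega, hW, fun ξ => (hbx _ (hWb ξ)).trans
    (mul_le_mul_of_nonneg_right hβ8 (sq_nonneg _))⟩

end system

open Classical in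
/-- Finite matrices behaving like free unitaries cut by a free projection of trace `1 / m`. -/
theorem matrix_goal : MatrixGoal := by
  intro m L D c δ hm hδ hmδ hc ha
  have : NeZero m := ⟨by omega⟩
  obtain ⟨y, hcy, hy, hb⟩ := exists_gram c δ hc ha
  obtain rfl : c = fun i i' => (y i)ᴴ * y i' := funext fun i => funext fun j => hcy i j
  obtain ⟨N, W, hN, hW, hWb⟩ := exists_half (R := 2 * (D + 1) + 1) hm hδ hmδ hy hb (Nat.lt_succ_self _)
  set σ := (Fintype.equivFin (Tr L m (2 * (D + 1) + 1))).symm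
  set V : Fin L → Matrix (Fin (Fintype.card (Tr L m (2 * (D + 1) + 1)))) (Fin N) ℂ :=
    fun i => Matrix.of fun k j => ∑ l, W (uQ i (eQ (l, σ k))) j with hV
  have hK : m * Fintype.card (Tr L m (2 * (D + 1) + 1)) =
      Fintype.card (Equiv.Perm (Wx L m (2 * (D + 1) + 1))) := by
    rw [← Fintype.card_congr eQ, Fintype.card_prod, Fintype.card_fin]
  refine ⟨N, _, V, ?_, ?_, fun i v => ?_, fun ξ => ?_⟩
  · have : 0 < Fintype.card (Equiv.Perm (Wx L m (2 * (D + 1) + 1))) := Fintype.card_pos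
    omega
  · omega
  · rw [dot_self, dot_self, ← nsq_cols hW v, ← Complex.ofReal_natCast, ← Complex.ofReal_mul,
      Complex.real_le_real, nsq, ← Equiv.sum_comp (uQ i), ← Equiv.sum_comp eQ, Fintype.sum_prod_type,
      sum_comm, mul_sum, ← Equiv.sum_comp σ]
    refine sum_le_sum fun k _ => ?_
    simp only [hV, mulVec, dotProduct, of_apply, sum_mul]
    rw [sum_comm]
    refine le_trans (pow_le_pow_left₀ (norm_nonneg _) (norm_sum_le _ _) 2) ?_
    refine sq_sum_le_card_mul_sum_sq.trans_eq ?_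
    rw [card_univ, Fintype.card_fin]
  · have hn : ‖∑ j, star (ξ j) ⬝ᵥ ξ j‖ = ‖vec fun q => ∑ j, W q j • ξ j‖ ^ 2 := by
      simp only [dot_self]
      rw [← Complex.ofReal_sum, Complex.norm_real, Real.norm_of_nonneg
        (sum_nonneg fun _ _ => nsq_nonneg _), norm_sq_vec]
      simp only [nsq]
      rw [sum_comm]
      conv_rhs => rw [sum_comm]
      refine sum_congr rfl fun d _ => ?_
      refine ((nsq_cols hW fun j => ξ j d).trans rfl).symm.trans ?_
      exact sum_congr rfl fun q _ => by simp [Finset.sum_apply]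
    rw [hn]
    refine le_trans (le_of_eq ?_) (hWb ξ)
    rw [inner_vec, inner_Zop _ _ eQ uQ_uQ hQ_eQ, quad_cols hW, quad_eq V,
      ← Equiv.sum_comp σ (fun s => ∑ i, ∑ i', _)]
    congr 2
    refine sum_congr rfl fun k _ => sum_congr rfl fun i _ => sum_congr rfl fun i' _ => ?_
    have ho : ∀ i, (∑ j, V i k j • ξ j) = orb uQ eQ i (fun q => ∑ j, W q j • ξ j) (σ k) := fun i => by
      simp only [hV, of_apply, orb, sum_smul]
      exact sum_comm
    rw [ho, ho]

end Vale.Agent.P095.Uni.Free
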