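import Mathlib

/-!
# P095: truncated reduced words of `ℤ/2 * ⋯ * ℤ/2 * ℤ/m`

A word is a power of `g` followed by pairs (free letter, power of `g`).
-/

open Finset

noncomputable section

namespace Vale.Agent.P095.Uni.Free

variable {L m : ℕ} [NeZero m]

/-- The letter `i` followed by `g ^ k` may be put in front of `w`. -/
def Good (i : Fin L) (k : Fin m) (w : List (Fin L × Fin m)) : Prop :=
  ∀ q ∈ w.head?, k = 0 → q.1 ≠ i

/-- Reduced lists. -/
def Red : List (Fin L × Fin m) → Prop
  | [] => True
  | p :: w => Good p.1 p.2 w ∧ Red w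

/-- The action of a free letter on words. -/
def act (i : Fin L) : Fin m × List (Fin L × Fin m) → Fin m × List (Fin L × Fin m)
  | (k, []) => (0, [(i, k)])
  | (k, q :: w) => if k = 0 ∧ q.1 = i then (q.2, w) else (0, (i, k) :: q :: w)

theorem not_good {i : Fin L} {k : Fin m} {w : List (Fin L × Fin m)} :
    ¬Good i k w ↔ k = 0 ∧ ∃ l w', w = (i, l) :: w' := by
  rcases w with _ | ⟨⟨a, l⟩, w⟩
  · simp [Good]
  · simp [Good, eq_comm]

theorem act_good {i : Fin L} {k : Fin m} {w : List (Fin L × Fin m)} (h : Good i k w) :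
    act i (k, w) = (0, (i, k) :: w) := by
  rcases w with _ | ⟨q, w⟩
  · rfl
  · rw [act, if_neg]
    exact fun hc => h q rfl hc.1 hc.2

theorem act_del (i : Fin L) (l : Fin m) (w : List (Fin L × Fin m)) :
    act i (0, (i, l) :: w) = (l, w) := by simp [act]

theorem red_cons {i : Fin L} {k : Fin m} {w : List (Fin L × Fin m)} :
    Red ((i, k) :: w) ↔ Good i k w ∧ Red w := Iff.rfl

theorem red_act {i : Fin L} {k : Fin m} {w : List (Fin L × Fin m)} (h : Red w) :
    Red (act i (k, w)).2 ∧ (act i (k, w)).2.length ≤ w.length + 1 ∧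
      act i (act i (k, w)) = (k, w) := by
  by_cases hg : Good i k w
  · rw [act_good hg, act_del]
    exact ⟨⟨hg, h⟩, le_rfl, rfl⟩
  · obtain ⟨rfl, l, w', rfl⟩ := not_good.1 hg
    rw [act_del, act_good h.1]
    exact ⟨h.2, by simp only [List.length_cons]; omega, rfl⟩

variable (L m) in
/-- Reduced lists of bounded length. -/
abbrev Wd (R : ℕ) : Type := {w : List (Fin L × Fin m) // Red w ∧ w.length ≤ R}

instance (R : ℕ) : Finite (Wd L m R) :=
  Set.finite_coe_iff.2 ((List.finite_length_le (Fin L × Fin m) R).subset fun _ h => h.2)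

instance (R : ℕ) : Fintype (Wd L m R) := Fintype.ofFinite _

variable (L m) in
/-- Words of bounded length. -/
abbrev Wx (R : ℕ) : Type := Fin m × Wd L m R

variable {R : ℕ}

/-- A word as a pair of a power and a list. -/
def val (x : Wx L m R) : Fin m × List (Fin L × Fin m) := (x.1, x.2.1)

omit [NeZero m] in
theorem val_injective [NeZero m] : Function.Injective (val (L := L) (m := m) (R := R)) := fun x y h => by
  simp only [val, Prod.mk.injEq] at h
  exact Prod.ext h.1 (Subtype.ext h.2)

open Classical in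
/-- The free letter on truncated words: the words leaving the ball are fixed. -/
def uFun (i : Fin L) (x : Wx L m R) : Wx L m R :=
  if h : Red (act i (val x)).2 ∧ (act i (val x)).2.length ≤ R then
    ((act i (val x)).1, ⟨(act i (val x)).2, h⟩) else x

theorem uFun_of_le {i : Fin L} {x : Wx L m R} (h : (act i (val x)).2.length ≤ R) :
    val (uFun i x) = act i (val x) := by
  rw [uFun, dif_pos ⟨(red_act x.2.2.1).1, h⟩]
  rfl

theorem uFun_of_lt {i : Fin L} {x : Wx L m R} (h : R < (act i (val x)).2.length) :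
    uFun i x = x := dif_neg fun hc => absurd hc.2 (by omega)

theorem uFun_uFun (i : Fin L) (x : Wx L m R) : uFun i (uFun i x) = x := by
  by_cases h : (act i (val x)).2.length ≤ R
  · apply val_injective
    have h' : act i (val (uFun i x)) = val x := by
      rw [uFun_of_le h]; exact (red_act x.2.2.1).2.2
    rw [uFun_of_le (by rw [h']; exact x.2.2.2), h']
  · rw [uFun_of_lt (not_le.1 h), uFun_of_lt (not_le.1 h)]

/-- The free letter as a permutation. -/
def uX (i : Fin L) : Equiv.Perm (Wx L m R) := Function.Involutive.toPerm _ (uFun_uFun i)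

/-- The powers of `g`. -/
def hX (j : Fin m) : Equiv.Perm (Wx L m R) := (Equiv.addRight j).prodCongr (Equiv.refl _)

theorem uX_uX (i : Fin L) (x : Wx L m R) : uX i (uX i x) = x := uFun_uFun i x

theorem uX_mul_self (i : Fin L) : (uX i : Equiv.Perm (Wx L m R)) * uX i = 1 :=
  Equiv.ext (uX_uX i)

theorem hX_mul (j l : Fin m) : (hX j : Equiv.Perm (Wx L m R)) * hX l = hX (l + j) :=
  Equiv.ext fun _ => Prod.ext (add_assoc _ _ _) rfl

theorem hX_zero : (hX 0 : Equiv.Perm (Wx L m R)) = 1 :=
  Equiv.ext fun _ => Prod.ext (add_zero _) rfl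

theorem length_uX (i : Fin L) (x : Wx L m R) : (uX i x).2.1.length ≤ x.2.1.length + 1 := by
  by_cases h : (act i (val x)).2.length ≤ R
  · have := congrArg Prod.snd (uFun_of_le h)
    rw [show (uX i x).2.1 = (act i (val x)).2 from this]
    exact (red_act x.2.2.1).2.1
  · rw [show uX i x = x from uFun_of_lt (not_le.1 h)]
    omega

theorem length_hX (j : Fin m) (x : Wx L m R) : (hX j x).2.1.length = x.2.1.length := rfl

/-- The empty word. -/
def empty : Wx L m R := (0, ⟨[], trivial, Nat.zero_le R⟩)

/-- The permutation belonging to a list. -/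
def ev : List (Fin L × Fin m) → Equiv.Perm (Wx L m R)
  | [] => 1
  | p :: w => uX p.1 * hX p.2 * ev w

/-- The permutation belonging to a word. -/
def evX (x : Wx L m R) : Equiv.Perm (Wx L m R) := hX x.1 * ev x.2.1

theorem ev_empty : ∀ (w : List (Fin L × Fin m)) (h : Red w ∧ w.length ≤ R),
    ev w (empty (R := R)) = ((0, ⟨w, h⟩) : Wx L m R) := by
  intro w
  induction w with
  | nil => intro h; rfl
  | cons p w ih =>
    intro h
    have hw : Red w ∧ w.length ≤ R := ⟨h.1.2, by have := h.2; simp only [List.length_cons] at this; omega⟩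
    simp only [ev, Equiv.Perm.mul_apply, ih hw]
    apply val_injective
    have e : val (hX p.2 ((0, ⟨w, hw⟩) : Wx L m R)) = (p.2, w) := by simp [hX, val]
    have ha : act p.1 (p.2, w) = (0, p :: w) := act_good h.1.1
    rw [show uX p.1 (hX p.2 ((0, ⟨w, hw⟩) : Wx L m R)) = uFun p.1 _ from rfl, uFun_of_le, e, ha]
    · rfl
    · rw [e, ha]; exact h.2

theorem evX_empty (x : Wx L m R) : evX x (empty (R := R)) = x := by
  obtain ⟨k, w, hw⟩ := x
  simp only [evX, Equiv.Perm.mul_apply, ev_empty w hw]
  exact Prod.ext (zero_add k) rfl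

theorem evX_injective : Function.Injective (evX (L := L) (m := m) (R := R)) := fun x y h => by
  rw [← evX_empty x, h, evX_empty]

theorem evX_hX (j : Fin m) (x : Wx L m R) : evX (hX j x) = hX j * evX x := by
  rw [evX, evX, ← mul_assoc, hX_mul]
  rfl

theorem evX_uX (i : Fin L) (x : Wx L m R) (h : x.2.1.length < R) : evX (uX i x) = uX i * evX x := by
  obtain ⟨k, w, hw⟩ := x
  have hle : (act i (k, w)).2.length ≤ R := (red_act hw.1).2.1.trans h
  have e : val (uX i ((k, ⟨w, hw⟩) : Wx L m R)) = act i (k, w) := uFun_of_le hle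
  have ev' : ∀ y : Wx L m R, evX y = hX (val y).1 * ev (val y).2 := fun _ => rfl
  rw [ev', e, ev']
  simp only [val]
  by_cases hg : Good i k w
  · rw [act_good hg, hX_zero, one_mul, ev, mul_assoc]
  · obtain ⟨rfl, l, w', rfl⟩ := not_good.1 hg
    rw [act_del, hX_zero, one_mul, ev, ← mul_assoc, ← mul_assoc, uX_mul_self, one_mul]

theorem evX_step (i i' : Fin L) (j : Fin m) (x : Wx L m R) (h : x.2.1.length + 1 < R) :
    evX ((uX i * hX j * uX i' : Equiv.Perm (Wx L m R)) x) = uX i * hX j * uX i' * evX x := by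
  simp only [Equiv.Perm.mul_apply]
  rw [evX_uX, evX_hX, evX_uX]
  · simp only [mul_assoc]
  · omega
  · rw [length_hX]; exact lt_of_le_of_lt (length_uX i' x) h

theorem length_step (i i' : Fin L) (j : Fin m) (x : Wx L m R) :
    ((uX i * hX j * uX i' : Equiv.Perm (Wx L m R)) x).2.1.length ≤ x.2.1.length + 2 := by
  simp only [Equiv.Perm.mul_apply]
  have h1 := length_uX i (hX j (uX i' x))
  have h2 := length_hX j (uX i' x)
  have h3 := length_uX i' x
  omega

end Vale.Agent.P095.Uni.Free
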