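import Vale.Agent.P095.Uni.Model.Op
import Vale.Agent.P095.Uni.Model.Words

/-!
# P095: the norm estimate on truncated words and its transport to the permutation group
-/

open scoped ComplexOrder
open Matrix Finset

noncomputable section

namespace Vale.Agent.P095.Uni.Free

variable {L m R : ℕ} [NeZero m] {D E : Type*} [Fintype D] [Fintype E]

open Classical in
/-- Extension by zero to all lists. -/
def ext {V : Type*} [Zero V] (η : Wx L m R → V) (z : Fin m × List (Fin L × Fin m)) : V :=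
  if h : Red z.2 ∧ z.2.length ≤ R then η (z.1, ⟨z.2, h⟩) else 0

theorem ext_val {V : Type*} [Zero V] (η : Wx L m R → V) (x : Wx L m R) : ext η (val x) = η x :=
  dif_pos x.2.2

/-- Vanishing on the sphere. -/
def Low {V : Type*} [Zero V] (η : Wx L m R → V) : Prop := ∀ x, R ≤ x.2.1.length → η x = 0

theorem ext_eq_zero {V : Type*} [Zero V] (η : Wx L m R → V) {z : Fin m × List (Fin L × Fin m)}
    (h : ¬(Red z.2 ∧ z.2.length ≤ R)) : ext η z = 0 := dif_neg h

theorem orb_ext {V : Type*} [AddCommMonoid V] {η : Wx L m R → V} (hη : Low η) (i : Fin L)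
    (w : Wd L m R) : orb uX (Equiv.refl (Wx L m R)) i η w = ∑ j, ext η (act i (j, w.1)) := by
  refine sum_congr rfl fun j _ => ?_
  show η (uFun i (j, w)) = _
  by_cases h : (act i (val ((j, w) : Wx L m R))).2.length ≤ R
  · rw [← ext_val η (uFun i (j, w)), uFun_of_le h]
    rfl
  · rw [uFun_of_lt (not_le.1 h), ext_eq_zero η (z := act i (j, w.1)) fun hc => h hc.2, hη]
    have h1 : (act i (j, w.1)).2.length ≤ w.1.length + 1 := (red_act w.2.1).2.1
    have h2 : R < (act i (j, w.1)).2.length := not_le.1 h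
    show R ≤ w.1.length
    omega

/-- The part of `∑ y i ⊗ orb i` which puts a letter in front. -/
def part₁ (y : Fin L → Matrix E D ℂ) (η : Wx L m R → D → ℂ) (w : Wd L m R) : E → ℂ :=
  match w.1 with
  | [] => 0
  | q :: w' => y q.1 *ᵥ ext η (q.2, w')

/-- The part of `∑ y i ⊗ orb i` which deletes a letter. -/
def part₂ (y : Fin L → Matrix E D ℂ) (η : Wx L m R → D → ℂ) (w : Wd L m R) : E → ℂ :=
  ∑ i, y i *ᵥ ∑ j, ext η (0, (i, j) :: w.1)

/-- The part missed on words starting with a free letter. -/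
def part₃ (y : Fin L → Matrix E D ℂ) (η : Wx L m R → D → ℂ) (x : Wx L m R) : E → ℂ :=
  match x.2.1 with
  | [] => 0
  | q :: _ => if x.1 = 0 then y q.1 *ᵥ η x else 0

/-- All the components. -/
def part₄ (y : Fin L → Matrix E D ℂ) (η : Wx L m R → D → ℂ) (p : Wx L m R × Fin L) : E → ℂ :=
  y p.2 *ᵥ η p.1

omit [Fintype E] in
theorem sum_orb {η : Wx L m R → D → ℂ} (hη : Low η) (y : Fin L → Matrix E D ℂ) :
    (fun w => ∑ i, y i *ᵥ orb uX (Equiv.refl (Wx L m R)) i η w) = part₁ y η + part₂ y η := by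
  funext w
  have key : ∀ i j, ext η (act i (j, w.1)) =
      (match w.1 with
        | [] => 0
        | q :: w' => if j = 0 ∧ q.1 = i then ext η (q.2, w') else 0) + ext η (0, (i, j) :: w.1) := by
    intro i j
    by_cases hg : Good i j w.1
    · rw [act_good hg]
      rcases hw : w.1 with _ | ⟨q, w'⟩
      · rw [zero_add]
      · rw [hw] at hg
        show _ = (if j = 0 ∧ q.1 = i then ext η (q.2, w') else 0) + _
        rw [if_neg fun hc => hg q rfl hc.1 hc.2, zero_add]
    · have h0 : ext η (0, (i, j) :: w.1) = 0 := ext_eq_zero η fun hc => hg hc.1.1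
      obtain ⟨rfl, l, w', hw⟩ := not_good.1 hg
      rw [h0, add_zero, hw, act_del]
      simp
  simp only [orb_ext hη, key, sum_add_distrib, mulVec_add, Pi.add_apply, part₂]
  congr 1
  rw [part₁]
  rcases w.1 with _ | ⟨q, w'⟩
  · simp
  · have h : ∀ i, (∑ j : Fin m, if j = 0 ∧ q.1 = i then ext η (q.2, w') else 0) =
        if q.1 = i then ext η (q.2, w') else 0 := fun i => by by_cases hi : q.1 = i <;> simp [hi]
    simp only [h]
    rw [sum_eq_single q.1 (fun i _ hi => by rw [if_neg (Ne.symm hi), mulVec_zero]) (by simp),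
      if_pos rfl]

open Classical in
theorem sum_good (T : Fin m × List (Fin L × Fin m) → Fin L → ℂ)
    (hT : ∀ (x : Wx L m R) i, R ≤ x.2.1.length → T (val x) i = 0) :
    ∑ x : Wx L m R, ∑ i, (if Good i x.1 x.2.1 then T (val x) i else 0) =
      ∑ w : Wd L m R, (match w.1 with | [] => 0 | q :: w' => T (q.2, w') q.1) := by
  rw [← Fintype.sum_prod_type']
  refine sum_bij_ne_zero (fun p _ hp => ⟨(p.2, p.1.1) :: p.1.2.1, ?_, ?_⟩) ?_ ?_ ?_ ?_
  · exact ⟨by_contra fun hg => hp (if_neg hg), p.1.2.2.1⟩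
  · rw [List.length_cons]
    by_contra hl
    refine hp ?_
    have := hT p.1 p.2 (by omega)
    split <;> simp_all
  · intros; exact mem_univ _
  · intro p _ _ p' _ _ h
    simp only [Subtype.mk.injEq, List.cons.injEq, Prod.mk.injEq] at h
    obtain ⟨⟨h1, h2⟩, h3⟩ := h
    exact Prod.ext (Prod.ext h2 (Subtype.ext h3)) h1
  · rintro ⟨w, hw⟩ _ hne
    rcases w with _ | ⟨⟨i, k⟩, w'⟩
    · simp at hne
    · have hlen : w'.length ≤ R := by
        have := hw.2; simp only [List.length_cons] at this; omega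
      refine ⟨((k, ⟨w', hw.1.2, hlen⟩), i), mem_univ _, ?_, rfl⟩
      rw [if_pos hw.1.1]
      exact hne
  · intro p _ hp
    have hg : Good p.2 p.1.1 p.1.2.1 := by_contra fun hg => hp (if_neg hg)
    exact (if_pos hg).trans rfl

theorem inner_part₁_add {ζ η : Wx L m R → D → ℂ} (hη : Low η) (y : Fin L → Matrix E D ℂ) :
    inner ℂ (vec (part₁ y ζ)) (vec (part₁ y η)) + inner ℂ (vec (part₃ y ζ)) (vec (part₃ y η)) =
      inner ℂ (vec (part₄ y ζ)) (vec (part₄ y η)) := by
  classical
  have h1 : inner ℂ (vec (part₁ y ζ)) (vec (part₁ y η)) =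
      ∑ x : Wx L m R, ∑ i, (if Good i x.1 x.2.1 then
        star (y i *ᵥ ζ x) ⬝ᵥ (y i *ᵥ η x) else 0) := by
    have h := sum_good (fun z i => star (y i *ᵥ ext ζ z) ⬝ᵥ (y i *ᵥ ext η z)) fun x i hx => by
      show star (y i *ᵥ ext ζ (val x)) ⬝ᵥ (y i *ᵥ ext η (val x)) = 0
      rw [ext_val, ext_val, hη x hx, mulVec_zero, dotProduct_zero]
    simp only [ext_val] at h
    rw [h, inner_vec]
    refine sum_congr rfl fun w _ => ?_
    unfold part₁
    rcases w.1 with _ | ⟨q, w'⟩ <;> first | rfl | simp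
  rw [h1, inner_vec, inner_vec, ← sum_add_distrib]
  conv_rhs => rw [Fintype.sum_prod_type]
  refine sum_congr rfl fun x _ => ?_
  simp only [part₄, part₃]
  obtain ⟨k, w, hw⟩ := x
  rcases w with _ | ⟨q, w'⟩
  · simp [Good]
  · have hg : ∀ i, Good i k (q :: w') ↔ ¬(k = 0 ∧ q.1 = i) := fun i => by simp [Good]
    by_cases hk : k = 0
    · subst hk
      simp only [hg, true_and, ite_not, if_true]
      rw [← Finset.add_sum_erase univ _ (mem_univ q.1)]
      conv_rhs => rw [← Finset.add_sum_erase univ _ (mem_univ q.1)]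
      rw [if_pos rfl, zero_add, add_comm]
      congr 1
      exact sum_congr rfl fun i hi => if_neg (Ne.symm (ne_of_mem_erase hi))
    · simp [hg, hk]

theorem norm_part₃_le {δ : ℝ} (hδ : 0 ≤ δ) {y : Fin L → Matrix E D ℂ}
    (hb : ∀ v : Fin L → D → ℂ, nsq (∑ i, y i *ᵥ v i) ≤ δ * ∑ i, nsq (v i))
    (η : Wx L m R → D → ℂ) : ‖vec (part₃ y η)‖ ≤ Real.sqrt δ * ‖vec η‖ := by
  refine le_of_pow_le_pow_left₀ two_ne_zero (by positivity) ?_
  rw [mul_pow, Real.sq_sqrt hδ, norm_sq_vec, norm_sq_vec, mul_sum]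
  refine sum_le_sum fun x _ => ?_
  simp only [part₃]
  split
  · simpa [nsq] using mul_nonneg hδ (nsq_nonneg (η x))
  · rename_i q w' _
    split
    · have h := hb (Pi.single q.1 (η x))
      rw [sum_eq_single q.1 (fun i _ hi => by rw [Pi.single_eq_of_ne hi, mulVec_zero]) (by simp),
        sum_eq_single q.1 (fun i _ hi => by simp [Pi.single_eq_of_ne hi, nsq]) (by simp),
        Pi.single_eq_same] at h
      exact h
    · simpa [nsq] using mul_nonneg hδ (nsq_nonneg (η x))

theorem norm_part₄_le {y : Fin L → Matrix E D ℂ} (hy : ∀ v, ∑ i, nsq (y i *ᵥ v) ≤ nsq v)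
    (η : Wx L m R → D → ℂ) : ‖vec (part₄ y η)‖ ≤ ‖vec η‖ := by
  refine le_of_pow_le_pow_left₀ two_ne_zero (norm_nonneg _) ?_
  rw [norm_sq_vec, norm_sq_vec, Fintype.sum_prod_type]
  refine sum_le_sum fun x _ => ?_
  simp only [part₄]
  exact hy (η x)

theorem norm_part₂_le {δ : ℝ} (hδ : 0 ≤ δ) {y : Fin L → Matrix E D ℂ}
    (hb : ∀ v : Fin L → D → ℂ, nsq (∑ i, y i *ᵥ v i) ≤ δ * ∑ i, nsq (v i))
    (η : Wx L m R → D → ℂ) : ‖vec (part₂ y η)‖ ≤ Real.sqrt (m * δ) * ‖vec η‖ := by
  classical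
  refine le_of_pow_le_pow_left₀ two_ne_zero (by positivity) ?_
  rw [mul_pow, Real.sq_sqrt (by positivity), norm_sq_vec, norm_sq_vec]
  calc ∑ w, nsq (part₂ y η w)
      ≤ ∑ w : Wd L m R, δ * ∑ i, ((m : ℝ) * ∑ j, nsq (ext η (0, (i, j) :: w.1))) := by
        refine sum_le_sum fun w _ => ?_
        refine (hb fun i => ∑ j, ext η (0, (i, j) :: w.1)).trans
          (mul_le_mul_of_nonneg_left (sum_le_sum fun i _ => ?_) hδ)
        have h := nsq_sum_le (univ : Finset (Fin m)) fun j => ext η (0, (i, j) :: w.1)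
        rwa [card_univ, Fintype.card_fin] at h
    _ = (m * δ) * ∑ p : Wd L m R × Fin L × Fin m, nsq (ext η (0, (p.2.1, p.2.2) :: p.1.1)) := by
        simp only [Fintype.sum_prod_type, mul_sum]
        refine sum_congr rfl fun w _ => sum_congr rfl fun i _ => sum_congr rfl fun j _ => ?_
        ring
    _ ≤ (m * δ) * ∑ x, nsq (η x) := by
        refine mul_le_mul_of_nonneg_left ?_ (by positivity)
        set g : Wd L m R × Fin L × Fin m → Fin m × List (Fin L × Fin m) :=
          fun p => (0, (p.2.1, p.2.2) :: p.1.1)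
        set G : Fin m × List (Fin L × Fin m) → ℝ := fun z => nsq (ext η z)
        have hg : Function.Injective g := by
          intro p p' h
          simp only [g, Prod.mk.injEq, List.cons.injEq, true_and] at h
          exact Prod.ext (Subtype.ext h.2) (Prod.ext h.1.1 h.1.2)
        calc ∑ p, G (g p) = ∑ z ∈ univ.image g, G z := (sum_image hg.injOn).symm
          _ ≤ ∑ z ∈ univ.image g ∪ univ.image (val (R := R)), G z :=
              sum_le_sum_of_subset_of_nonneg subset_union_left fun _ _ _ => nsq_nonneg _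
          _ = ∑ z ∈ univ.image (val (R := R)), G z := by
              refine (sum_subset subset_union_right fun z _ hz => ?_).symm
              show nsq (ext η z) = 0
              rw [ext_eq_zero η fun hc => hz (mem_image.2 ⟨(z.1, ⟨z.2, hc⟩), mem_univ _, rfl⟩)]
              simp [nsq]
          _ = ∑ x, nsq (η x) := by
              rw [sum_image val_injective.injOn]
              simp [G, ext_val]

open Classical in
/-- The bilinear bound on words inside the ball. -/
theorem inner_Zop_le {δ : ℝ} (hδ : 0 ≤ δ) {y : Fin L → Matrix E D ℂ}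
    (hy : ∀ v, ∑ i, nsq (y i *ᵥ v) ≤ nsq v)
    (hb : ∀ v : Fin L → D → ℂ, nsq (∑ i, y i *ᵥ v i) ≤ δ * ∑ i, nsq (v i))
    {ζ η : Wx L m R → D → ℂ} (hζ : Low ζ) (hη : Low η) :
    ‖inner ℂ (vec ζ) (vec (Zop uX hX (fun i i' => (y i)ᴴ * y i') η))‖ ≤
      (δ + 2 * Real.sqrt (m * δ) + m * δ) * (‖vec ζ‖ * ‖vec η‖) := by
  rw [inner_Zop_gram uX hX (Equiv.refl (Wx L m R)) uX_uX (fun j l s => rfl) y, sum_orb hζ, sum_orb hη,
    vec_add, vec_add]
  change ‖inner ℂ (vec (part₁ y ζ) + vec (part₂ y ζ)) (vec (part₁ y η) + vec (part₂ y η)) -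
    inner ℂ (vec (part₄ y ζ)) (vec (part₄ y η))‖ ≤ _
  rw [← inner_part₁_add hη, inner_add_left, inner_add_right, inner_add_right]
  have h1 : ∀ θ : Wx L m R → D → ℂ, Low θ → ‖vec (part₁ y θ)‖ ≤ ‖vec θ‖ := fun θ hθ => by
    refine le_trans ?_ (norm_part₄_le hy θ)
    refine le_of_pow_le_pow_left₀ two_ne_zero (norm_nonneg _) ?_
    have h := congrArg Complex.re (inner_part₁_add (ζ := θ) hθ y)
    simp only [Complex.add_re, inner_self_eq_norm_sq_to_K, ← Complex.ofReal_pow,
      RCLike.ofReal_pow, Complex.coe_algebraMap] at h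
    norm_cast at h
    nlinarith [sq_nonneg ‖vec (part₃ y θ)‖]
  set P1 := vec (part₁ y ζ)
  set P2 := vec (part₂ y ζ)
  set P3 := vec (part₃ y ζ)
  set Q1 := vec (part₁ y η)
  set Q2 := vec (part₂ y η)
  set Q3 := vec (part₃ y η)
  have e : inner ℂ P1 Q1 + inner ℂ P1 Q2 + (inner ℂ P2 Q1 + inner ℂ P2 Q2) -
      (inner ℂ P1 Q1 + inner ℂ P3 Q3) =
      -inner ℂ P3 Q3 + inner ℂ P1 Q2 + inner ℂ P2 Q1 + inner ℂ P2 Q2 := by ring
  rw [e]
  refine (norm_add_le _ _).trans (le_trans (add_le_add (norm_add_le _ _) le_rfl) ?_)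
  refine le_trans (add_le_add (add_le_add (norm_add_le _ _) le_rfl) le_rfl) ?_
  rw [norm_neg]
  have b : ∀ (A B : EuclideanSpace ℂ (Wd L m R × E)) (a c : ℝ), 0 ≤ a → ‖A‖ ≤ a * ‖vec ζ‖ →
      ‖B‖ ≤ c * ‖vec η‖ → ‖inner ℂ A B‖ ≤ a * c * (‖vec ζ‖ * ‖vec η‖) := fun A B a c ha hA hB =>
    (norm_inner_le_norm A B).trans
      ((mul_le_mul hA hB (norm_nonneg _) (by positivity)).trans_eq (by ring))
  have c1 : ‖inner ℂ P3 Q3‖ ≤ δ * (‖vec ζ‖ * ‖vec η‖) := by
    refine (norm_inner_le_norm P3 Q3).trans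
      ((mul_le_mul (norm_part₃_le hδ hb ζ) (norm_part₃_le hδ hb η) (norm_nonneg _)
        (by positivity)).trans_eq ?_)
    rw [mul_mul_mul_comm, Real.mul_self_sqrt hδ]
  have p1 := h1 ζ hζ
  have q1 := h1 η hη
  have p2 := norm_part₂_le hδ hb ζ
  have q2 := norm_part₂_le hδ hb η
  have c2 := b P1 Q2 1 (Real.sqrt (m * δ)) zero_le_one (by rwa [one_mul]) q2
  have c3 := b P2 Q1 (Real.sqrt (m * δ)) 1 (Real.sqrt_nonneg _) p2 (by rwa [one_mul])
  have c4 := b P2 Q2 _ _ (Real.sqrt_nonneg _) p2 q2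
  rw [Real.mul_self_sqrt (by positivity)] at c4
  nlinarith

/-- The free letters acting on the permutation group of the truncated words. -/
def uQ (i : Fin L) : Equiv.Perm (Equiv.Perm (Wx L m R)) := Equiv.mulLeft (uX i)

/-- The powers of `g` acting on the permutation group of the truncated words. -/
def hQ (j : Fin m) : Equiv.Perm (Equiv.Perm (Wx L m R)) := Equiv.mulLeft (hX j)

open Classical in
/-- The moment bound at every point of the permutation group. -/
theorem moment {δ : ℝ} (hδ : 0 ≤ δ) {y : Fin L → Matrix E D ℂ}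
    (hy : ∀ v, ∑ i, nsq (y i *ᵥ v) ≤ nsq v)
    (hb : ∀ v : Fin L → D → ℂ, nsq (∑ i, y i *ᵥ v i) ≤ δ * ∑ i, nsq (v i))
    (n : ℕ) (hn : 2 * n < R) (q : Equiv.Perm (Wx L m R)) (v : D → ℂ) :
    ∑ p, nsq ((Zop uQ hQ (fun i i' => (y i)ᴴ * y i'))^[n] (fun p => if p = q then v else 0) p) ≤
      ((δ + 2 * Real.sqrt (m * δ) + m * δ) ^ n) ^ 2 * nsq v := by
  set β := δ + 2 * Real.sqrt (m * δ) + m * δ with hβ'
  have hβ : 0 ≤ β := by positivity
  set c := fun i i' => (y i)ᴴ * y i'
  set f : Wx L m R → Equiv.Perm (Wx L m R) := fun x => evX x * q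
  have hf : Function.Injective f := fun a b h => evX_injective (mul_right_cancel h)
  set η₀ : Wx L m R → D → ℂ := fun x => if x = empty then v else 0
  have h0 : (fun p => if p = q then v else 0) = push f η₀ := by
    have he : f empty = q := by
      simp only [f, evX, empty, ev, hX_zero, one_mul]
    funext p
    by_cases hp : p = q
    · subst hp
      conv_rhs => rw [← he]
      rw [push_apply_inj hf]
      simp [η₀]
    · rw [if_neg hp, push]
      refine (sum_eq_zero fun x _ => ?_).symm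
      by_cases hx : f x = p
      · rw [if_pos hx]
        exact if_neg fun hc => hp (by rw [← hx, hc, he])
      · exact if_neg hx
  have key : ∀ k, k ≤ n → (Zop uQ hQ c)^[k] (push f η₀) = push f ((Zop uX hX c)^[k] η₀) ∧
      (∀ x, 2 * k < x.2.1.length → (Zop uX hX c)^[k] η₀ x = 0) ∧
      ‖vec ((Zop uX hX c)^[k] η₀)‖ ≤ β ^ k * ‖vec η₀‖ := by
    intro k
    induction k with
    | zero =>
      intro _
      refine ⟨rfl, fun x hx => if_neg fun hc => ?_, by simp⟩
      rw [hc] at hx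
      simp [empty] at hx
    | succ k ih =>
      intro hk
      obtain ⟨h1, h2, h3⟩ := ih (by omega)
      set ζ := (Zop uX hX c)^[k] η₀ with hζ
      have hsupp : ∀ x, ζ x ≠ 0 → x.2.1.length ≤ 2 * k := fun x hx => not_lt.1 fun hl => hx (h2 x hl)
      have h2' : ∀ x, 2 * (k + 1) < x.2.1.length → Zop uX hX c ζ x = 0 := by
        intro x hx
        simp only [Zop, Pi.sub_apply, Finset.sum_apply, h2 x (by omega), mulVec_zero, sub_zero]
        refine sum_eq_zero fun i _ => sum_eq_zero fun i' _ => sum_eq_zero fun j _ =>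
          sum_eq_zero fun z _ => ?_
        by_cases hz : ζ z = 0
        · simp [hz]
        · refine if_neg fun hc => ?_
          have := length_step i i' j z
          have := hsupp z hz
          rw [hc] at *
          omega
      refine ⟨?_, by rwa [Function.iterate_succ_apply'], ?_⟩
      · rw [Function.iterate_succ_apply', Function.iterate_succ_apply', h1]
        refine Zop_push _ _ _ _ _ _ _ fun x hx i i' j => ?_
        have := hsupp x hx
        simp only [f, evX_step i i' j x (by omega)]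
        simp [uQ, hQ, mul_assoc]
      · rw [Function.iterate_succ_apply']
        set θ := Zop uX hX c ζ
        have hb' := inner_Zop_le hδ hy hb (ζ := θ) (η := ζ) (fun x hx => h2' x (by omega))
          (fun x hx => h2 x (by omega))
        rw [inner_self_eq_norm_sq_to_K, norm_pow, RCLike.norm_ofReal, abs_norm, ← hβ'] at hb'
        rcases (norm_nonneg (vec θ)).eq_or_lt with h | h
        · rw [← h]; positivity
        · calc ‖vec θ‖ ≤ β * ‖vec ζ‖ := le_of_mul_le_mul_left (by linarith) h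
            _ ≤ β * (β ^ k * ‖vec η₀‖) := mul_le_mul_of_nonneg_left h3 hβ
            _ = β ^ (k + 1) * ‖vec η₀‖ := by ring
  obtain ⟨h1, -, h3⟩ := key n le_rfl
  rw [h0, h1, sum_push_inj hf _ nsq (by simp [nsq]), ← norm_sq_vec]
  refine (pow_le_pow_left₀ (norm_nonneg _) h3 2).trans_eq ?_
  rw [mul_pow, norm_sq_vec]
  congr 1
  rw [sum_eq_single empty (fun x _ hx => by simp [η₀, hx, nsq]) (by simp)]
  simp [η₀]

end Vale.Agent.P095.Uni.Free
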