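import Vale.Agent.P095.Uni.Goals

/-!
# P095: operators made of permutations and matrices on a finite set
-/

open scoped ComplexOrder
open Matrix Finset

noncomputable section

namespace Vale.Agent.P095.Uni.Free

section basic

variable {Y D E : Type*} [Fintype Y] [Fintype D] [Fintype E]

/-- The square sum of a vector. -/
def nsq (v : D → ℂ) : ℝ := ∑ d, ‖v d‖ ^ 2

theorem nsq_nonneg (v : D → ℂ) : 0 ≤ nsq v := sum_nonneg fun _ _ => sq_nonneg _

theorem dot_self (v : D → ℂ) : star v ⬝ᵥ v = (nsq v : ℂ) := by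
  rw [nsq, Complex.ofReal_sum]
  refine sum_congr rfl fun d _ => ?_
  rw [Pi.star_apply, RCLike.star_def, Complex.conj_mul', Complex.ofReal_pow]

theorem nsq_sum_le {ι : Type*} (s : Finset ι) (v : ι → D → ℂ) :
    nsq (∑ i ∈ s, v i) ≤ s.card * ∑ i ∈ s, nsq (v i) := by
  simp only [nsq, mul_sum]
  rw [sum_comm]
  refine sum_le_sum fun d _ => ?_
  rw [← mul_sum, Finset.sum_apply]
  calc ‖∑ i ∈ s, v i d‖ ^ 2 ≤ (∑ i ∈ s, ‖v i d‖) ^ 2 :=
        pow_le_pow_left₀ (norm_nonneg _) (norm_sum_le _ _) 2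
    _ ≤ s.card * ∑ i ∈ s, ‖v i d‖ ^ 2 := sq_sum_le_card_mul_sum_sq

/-- A family of vectors as one vector of a Hilbert space. -/
def vec (η : Y → D → ℂ) : EuclideanSpace ℂ (Y × D) := WithLp.toLp 2 fun p => η p.1 p.2

theorem norm_sq_vec (η : Y → D → ℂ) : ‖vec η‖ ^ 2 = ∑ y, nsq (η y) := by
  rw [EuclideanSpace.norm_sq_eq, Fintype.sum_prod_type]
  rfl

theorem inner_vec (ζ η : Y → D → ℂ) :
    inner ℂ (vec ζ) (vec η) = ∑ y, star (ζ y) ⬝ᵥ η y := by
  rw [PiLp.inner_apply, Fintype.sum_prod_type]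
  refine sum_congr rfl fun y _ => sum_congr rfl fun d _ => ?_
  simp [vec, RCLike.inner_apply, mul_comm]

omit [Fintype Y] [Fintype D] in
theorem vec_add (ζ η : Y → D → ℂ) : vec (ζ + η) = vec ζ + vec η := rfl

theorem dot_gram (A B : Matrix E D ℂ) (v w : D → ℂ) :
    star v ⬝ᵥ ((Aᴴ * B) *ᵥ w) = star (A *ᵥ v) ⬝ᵥ (B *ᵥ w) := by
  rw [← mulVec_mulVec, dotProduct_mulVec, star_mulVec]

end basic

section push

variable {X Y Y' V : Type*} [Fintype X] [Fintype Y] [DecidableEq Y] [DecidableEq Y'] [AddCommMonoid V]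

/-- The push-forward of a function. -/
def push (f : X → Y) (η : X → V) : Y → V := fun y => ∑ x, if f x = y then η x else 0

omit [Fintype Y] in
theorem push_congr {f f' : X → Y} (η : X → V) (h : ∀ x, η x ≠ 0 → f x = f' x) :
    push f η = push f' η := by
  funext y
  refine sum_congr rfl fun x _ => ?_
  by_cases hx : η x = 0
  · simp [hx]
  · rw [h x hx]

theorem push_push (g : Y → Y') (f : X → Y) (η : X → V) : push g (push f η) = push (g ∘ f) η := by
  funext z
  have : ∀ y, (if g y = z then push f η y else 0) =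
      ∑ x, if f x = y then (if g y = z then η x else 0) else 0 := fun y => by
    by_cases h : g y = z <;> simp [push, h]
  simp only [push] at this
  simp only [push, this]
  rw [sum_comm]
  exact sum_congr rfl fun x _ => by simp

omit [Fintype Y] in
theorem push_apply_inj {f : X → Y} (hf : Function.Injective f) (η : X → V) (x : X) :
    push f η (f x) = η x := by
  classical
  simp only [push, hf.eq_iff]
  simp

omit [Fintype Y] in
theorem push_map {W F : Type*} [AddCommMonoid W] [FunLike F V W] [AddMonoidHomClass F V W] (φ : F)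
    (f : X → Y) (η : X → V) : (fun y => φ (push f η y)) = push f (fun x => φ (η x)) := by
  funext y
  simp only [push, map_sum]
  exact sum_congr rfl fun x _ => by split <;> simp

omit [Fintype Y] in
theorem push_sum {ι : Type*} (s : Finset ι) (f : X → Y) (η : ι → X → V) :
    push f (∑ i ∈ s, η i) = ∑ i ∈ s, push f (η i) := by
  funext y
  simp only [push, Finset.sum_apply]
  rw [sum_comm]
  exact sum_congr rfl fun x _ => by split <;> simp

theorem sum_push_inj {f : X → Y} (hf : Function.Injective f) (η : X → V) {W : Type*}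
    [AddCommMonoid W] (G : V → W) (hG : G 0 = 0) : ∑ y, G (push f η y) = ∑ x, G (η x) := by
  refine (Fintype.sum_of_injective f hf _ _ (fun y hy => ?_) fun x => ?_).symm
  · rw [show push f η y = 0 from sum_eq_zero fun x _ => if_neg fun h => hy ⟨x, h⟩, hG]
  · rw [push_apply_inj hf]

end push

section op

variable {X Y D E : Type*} [Fintype X] [Fintype Y] [DecidableEq X] [DecidableEq Y] [Fintype D]
variable {L m : ℕ}

/-- `∑ U i H j U i' ⊗ c i i' - 1 ⊗ ∑ c i i`. -/
def Zop (U : Fin L → Equiv.Perm Y) (H : Fin m → Equiv.Perm Y)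
    (c : Fin L → Fin L → Matrix D D ℂ) (η : Y → D → ℂ) : Y → D → ℂ :=
  (∑ i, ∑ i', ∑ j, push (U i * H j * U i') fun y => c i i' *ᵥ η y) -
    fun y => (∑ i, c i i) *ᵥ η y

theorem Zop_push (U : Fin L → Equiv.Perm Y) (H : Fin m → Equiv.Perm Y)
    (U' : Fin L → Equiv.Perm X) (H' : Fin m → Equiv.Perm X)
    (c : Fin L → Fin L → Matrix D D ℂ) (f : X → Y) (η : X → D → ℂ)
    (h : ∀ x, η x ≠ 0 → ∀ i i' j, f ((U' i * H' j * U' i') x) = (U i * H j * U i') (f x)) :
    Zop U H c (push f η) = push f (Zop U' H' c η) := by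
  have hc : ∀ M : Matrix D D ℂ, (fun y => M *ᵥ push f η y) = push f fun x => M *ᵥ η x := fun M =>
    push_map (Matrix.mulVecLin M) f η
  have hs : ∀ u v : X → D → ℂ, push f (u - v) = push f u - push f v := fun u v => by
    funext y
    simp only [push, Pi.sub_apply, ← sum_sub_distrib]
    exact sum_congr rfl fun x _ => by split <;> simp
  unfold Zop
  rw [hs, push_sum, hc]
  congr 1
  refine sum_congr rfl fun i _ => ?_
  rw [push_sum]
  refine sum_congr rfl fun i' _ => ?_
  rw [push_sum]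
  refine sum_congr rfl fun j _ => ?_
  rw [hc, push_push, push_push]
  refine push_congr _ fun x hx => (h x ?_ i i' j).symm
  intro h0
  exact hx (by rw [h0, mulVec_zero])

/-- The sums over orbits after a generator. -/
def orb {S V : Type*} [AddCommMonoid V] (U : Fin L → Equiv.Perm Y) (e : Fin m × S ≃ Y) (i : Fin L)
    (η : Y → V) (s : S) : V := ∑ j, η (U i (e (j, s)))

variable [NeZero m] {S : Type*} [Fintype S]

theorem inner_Zop (U : Fin L → Equiv.Perm Y) (H : Fin m → Equiv.Perm Y) (e : Fin m × S ≃ Y)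
    (hU : ∀ i y, U i (U i y) = y) (hH : ∀ j l s, H j (e (l, s)) = e (l + j, s))
    (c : Fin L → Fin L → Matrix D D ℂ) (ζ η : Y → D → ℂ) :
    ∑ y, star (ζ y) ⬝ᵥ Zop U H c η y =
      ∑ s, ∑ i, ∑ i', star (orb U e i ζ s) ⬝ᵥ (c i i' *ᵥ orb U e i' η s) -
        ∑ y, star (ζ y) ⬝ᵥ ((∑ i, c i i) *ᵥ η y) := by
  simp only [Zop, Pi.sub_apply, Finset.sum_apply, dotProduct_sub, sum_sub_distrib]
  congr 1
  simp only [dotProduct_sum]
  rw [sum_comm]
  conv_rhs => rw [sum_comm]
  refine sum_congr rfl fun i _ => ?_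
  rw [sum_comm]
  conv_rhs => rw [sum_comm]
  refine sum_congr rfl fun i' _ => ?_
  rw [sum_comm]
  have key : ∀ j, ∑ y, star (ζ y) ⬝ᵥ push (U i * H j * U i') (fun z => c i i' *ᵥ η z) y =
      ∑ l, ∑ s, star (ζ (U i (e (l + j, s)))) ⬝ᵥ (c i i' *ᵥ η (U i' (e (l, s)))) := fun j => by
    rw [← Equiv.sum_comp (U i * H j * U i'), ← Equiv.sum_comp (U i'), ← Equiv.sum_comp e,
      Fintype.sum_prod_type]
    refine sum_congr rfl fun l _ => sum_congr rfl fun s _ => ?_
    rw [push_apply_inj (Equiv.injective _)]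
    simp [hU, hH]
  simp only [key, orb, star_sum, sum_dotProduct, mulVec_sum, dotProduct_sum]
  rw [sum_comm]
  rw [sum_comm (s := (univ : Finset S))]
  refine sum_congr rfl fun l _ => ?_
  rw [sum_comm]
  refine sum_congr rfl fun s _ => ?_
  exact Fintype.sum_equiv (Equiv.addLeft l) _ _ fun _ => rfl

theorem inner_Zop_gram [Fintype E] (U : Fin L → Equiv.Perm Y) (H : Fin m → Equiv.Perm Y)
    (e : Fin m × S ≃ Y) (hU : ∀ i y, U i (U i y) = y)
    (hH : ∀ j l s, H j (e (l, s)) = e (l + j, s)) (y : Fin L → Matrix E D ℂ) (ζ η : Y → D → ℂ) :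
    inner ℂ (vec ζ) (vec (Zop U H (fun i i' => (y i)ᴴ * y i') η)) =
      inner ℂ (vec fun s => ∑ i, y i *ᵥ orb U e i ζ s) (vec fun s => ∑ i, y i *ᵥ orb U e i η s) -
        inner ℂ (vec fun p : Y × Fin L => y p.2 *ᵥ ζ p.1) (vec fun p : Y × Fin L => y p.2 *ᵥ η p.1) := by
  rw [inner_vec, inner_vec, inner_vec, inner_Zop U H e hU hH, Fintype.sum_prod_type]
  congr 1
  · refine sum_congr rfl fun s _ => ?_
    rw [star_sum, sum_dotProduct]
    refine sum_congr rfl fun i _ => ?_
    rw [dotProduct_sum]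
    exact sum_congr rfl fun i' _ => dot_gram _ _ _ _
  · refine sum_congr rfl fun z _ => ?_
    rw [sum_mulVec, dotProduct_sum]
    exact sum_congr rfl fun i _ => dot_gram _ _ _ _

end op

end Vale.Agent.P095.Uni.Free
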